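import Vale.Agent.P057NA.Wrap
import Vale.Agent.P057AD.Add
import Vale.Agent.P057PC.Cub

/-! Components of a family, linear parts, lengths of points. -/

set_option linter.all false

open Matrix Finset MvPolynomial
open Vale.Agent.P267.H775 Vale.Agent.P057G Vale.Agent.P057PC Vale.Agent.P057TP

namespace Vale.Agent.P057EV

noncomputable section

variable {C W S ι : Type} [Fintype W] [DecidableEq W] [Fintype S] {lv : ι → ℕ} {s j : ℕ}

/-- a small face and a level below `j` -/
abbrev Ix (W : Type) (s j : ℕ) := {A : Finset W // A.card ≤ s} × Fin (j - 1)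

/-- the base that matters for a component -/
def nb (o : Option S) (q : Ix W s j) : Option S := if q.1.1.card + (q.2 + 1) = j then none else o

open Classical in
/-- the component of weight `i` on the face `A` -/
def cq (lv : ι → ℕ) (Φ : MvPolynomial ι (Lam ℝ W)) (A : Finset W) (i : ℕ) : MvPolynomial ι ℝ :=
  ∑ β ∈ Φ.support.filter fun β => Finsupp.weight lv β = i, monomial β (altL A (coeff β Φ))

theorem coeff_cq (Φ : MvPolynomial ι (Lam ℝ W)) (A : Finset W) (i : ℕ) (β : ι →₀ ℕ) :
    coeff β (cq lv Φ A i) = if Finsupp.weight lv β = i then altL A (coeff β Φ) else 0 := by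
  classical
  simp only [cq, coeff_sum, coeff_monomial, sum_ite_eq', mem_filter, mem_support_iff]
  by_cases h : coeff β Φ = 0 <;> simp [h, altL_zero]

theorem hom_cq (Φ : MvPolynomial ι (Lam ℝ W)) (A : Finset W) (i : ℕ) :
    (cq lv Φ A i).IsWeightedHomogeneous lv i := fun β h => by
  rw [coeff_cq] at h
  by_contra k
  exact h (if_neg k)

theorem dec {Φ : Fam ℝ Unit ι W S} (h : Φ.Ok (fun _ => j) lv) (hp : ∀ a, 0 < lv a) (hj : j ≤ s)
    (o : Option S) (B : Finset W) : ∃ c, Φ.at' o B () = Φ.top () + MvPolynomial.C c +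
      ∑ q : Ix W s j, if q.1.1 ⊆ B ∧ q.1.1.card + (q.2 + 1) ≤ j then
        cq lv (Φ.fn (nb o q) ()) q.1 (q.2 + 1) else 0 := by
  classical
  refine ⟨coeff 0 (Φ.at' o B () - Φ.top ()), MvPolynomial.ext _ _ fun β => ?_⟩
  simp only [coeff_add, coeff_sum, apply_ite (coeff β), coeff_cq, coeff_zero, coeff_C]
  by_cases h0 : β = 0
  · simp [h0]
  obtain ⟨w, hw⟩ : ∃ w, Finsupp.weight lv β = w + 1 := by
    obtain ⟨a, ha⟩ := Finsupp.ne_iff.1 h0
    exact Nat.exists_eq_add_one.2 ((hp a).trans_le (Finsupp.le_weight_of_ne_zero' lv ha))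
  have hx : ∀ o, IsHomogeneous (coeff β (Φ.fn o ())) (j - (w + 1)) := fun o μ e => by
    have := h.hom o () β μ e
    rw [Finsupp.degree_eq_weight_one] at this
    change Finsupp.weight (fun _ => 1) μ = _
    omega
  rw [if_neg (Ne.symm h0), add_zero, ← h.top_eq o, Fam.at', coeff_map, coeff_map, hw]
  by_cases k : w + 1 < j
  · rw [constantCoeff_eq, (hx o).coeff_eq_zero (by simp; omega), zero_add, ← sum_altL,
      Fintype.sum_prod_type, show B.powerset = univ.filter (· ⊆ B) by ext; simp, sum_filter]
    refine (Fintype.sum_of_injective Subtype.val Subtype.val_injective _ _ (fun A hA => ?_)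
      fun A => ?_).symm
    · rw [altL_of_lt (hx o) (by have : ¬ A.card ≤ s := fun e => hA ⟨⟨A, e⟩, rfl⟩; omega), ite_self]
    rw [sum_eq_single ⟨w, by omega⟩ (fun i _ hi => by
      rw [if_neg (c := w + 1 = i + 1) fun e => hi (Fin.ext (by simpa using e.symm)), ite_self])
      (by simp), if_pos rfl]
    by_cases k1 : A.1 ⊆ B
    · rw [if_pos k1]
      split_ifs with k2
      · rw [nb]
        split_ifs with k3
        · have k4 : j - (w + 1) = A.1.card := by simp only at k3; omega
          refine (altL_kt (k4 ▸ hx none)).symm.trans (Eq.trans ?_ (altL_kt (k4 ▸ hx o)))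
          rw [← coeff_map, ← coeff_map]
          cases o
          exacts [rfl, by rw [h.pure]]
        · rfl
      · exact (altL_of_lt (hx o) (by simp only [k1, true_and] at k2; omega)).symm
    · rw [if_neg k1, if_neg fun e => k1 e.1]
  · have e := (hx o).totalDegree_le
    rw [show j - (w + 1) = 0 by omega, Nat.le_zero, totalDegree_eq_zero_iff_eq_C] at e
    rw [e, evA_C, constantCoeff_C, sum_eq_zero fun q _ => by
      rw [if_neg (c := w + 1 = q.2 + 1) (by have := q.2.2; omega), ite_self], add_zero]

theorem lin_eval [Fintype ι] {Q : MvPolynomial ι ℝ} {d : ℕ} (h : Q.IsWeightedHomogeneous lv d)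
    (hp : ∀ a, 0 < lv a) (y u : ι → ℝ) :
    eval (fun b => if lv b = d then y b - u b else y b) Q =
      eval y Q - ∑ b, (if lv b = d then coeff (Finsupp.single b 1) Q else 0) * u b := by
  classical
  induction h using IsWeightedHomogeneous.induction_on with
  | zero => simp
  | add p q _ _ h1 h2 =>
    simp only [map_add, h1, h2, coeff_add, ite_add_zero, add_mul, sum_add_distrib]
    ring
  | monomial β r hr =>
    by_cases k : ∃ b, β b ≠ 0 ∧ lv b = d
    · obtain ⟨b, h1, h2⟩ := k
      obtain ⟨γ, rfl⟩ := exists_add_of_le (Finsupp.single_le_iff.2 (Nat.one_le_iff_ne_zero.2 h1))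
      obtain rfl : γ = 0 := by
        by_contra e
        obtain ⟨a, ha⟩ := Finsupp.ne_iff.1 e
        have := (hp a).trans_le (Finsupp.le_weight_of_ne_zero' lv ha)
        rw [map_add, Finsupp.weight_single, one_smul] at hr
        omega
      simp only [add_zero, coeff_monomial, Finsupp.single_left_inj one_ne_zero, eval_monomial,
        Finsupp.prod_single_index, pow_zero, pow_one, h2, if_true]
      rw [sum_eq_single b (fun a _ e => by simp [e.symm]) (by simp)]
      simp only [h2, if_true]
      ring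
    · push Not at k
      rw [sum_eq_zero fun b _ => ?_, sub_zero, eval_monomial, eval_monomial]
      · exact congrArg _ (Finsupp.prod_congr fun b hb => by
          rw [if_neg (k b (Finsupp.mem_support_iff.1 hb))])
      · split_ifs with e
        · rw [coeff_monomial, if_neg fun e2 => k b (by simp [e2]) e, zero_mul]
        · exact zero_mul _

variable {T : Tow} {cl : W → C} {m : ℕ}

theorem qq_pt (hG : T.G.PosDef) (u : Lb T cl S m → ℝ) (o : Option S) (B : Finset W) :
    qq T.G (pt u o B) ≤ 2 ^ (B.card + 1) * qq (Gam T cl S m) u := by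
  classical
  let v : Finset W × Option S → T.ι → ℝ := fun φ a =>
    ∑ l, if l.cd = a ∧ (l.fc, l.bs) = φ then u l else 0
  have h1 : pt u o B = ∑ φ ∈ B.powerset ×ˢ {none, o}, v φ := by
    funext a
    rw [Finset.sum_apply, sum_comm]
    refine sum_congr rfl fun l _ => ?_
    by_cases k : l.cd = a <;> simp [k]
  have h2 : ((B.powerset ×ˢ ({none, o} : Finset (Option S))).card : ℝ) ≤ 2 ^ (B.card + 1) := by
    rw [card_product, card_powerset, pow_succ]
    exact_mod_cast Nat.mul_le_mul_left _ card_le_two
  rw [h1, qq_face T.G Lb.cd (fun k => (k.fc, k.bs)) (fun l l' => by simp [Gam]) u]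
  exact (P057PC.qq_sum_le hG.posSemidef _ v).trans (mul_le_mul h2 (sum_le_sum_of_subset_of_nonneg
    (subset_univ _) fun _ _ _ => qq_nonneg hG.posSemidef _)
    (sum_nonneg fun _ _ => qq_nonneg hG.posSemidef _) (by positivity))

theorem pt_ite (u : Lb T cl S m → ℝ) (p : ℕ → Prop) [DecidablePred p] (o : Option S) (B : Finset W)
    (a : T.ι) : pt (fun l => if p (T.lv l.cd) then u l else 0) o B a =
      if p (T.lv a) then pt u o B a else 0 := by
  split_ifs with h
  · exact P057GH.pt_congr fun l e _ _ => if_pos (e ▸ h)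
  · exact (P057GH.pt_congr (x' := fun _ => 0) fun l e _ _ => if_neg (e ▸ h)).trans (by simp [pt])

theorem qq_lev {L : Type} [Fintype L] [DecidableEq L] {lv : L → ℕ} {G : Matrix L L ℝ}
    (hG : G.PosDef) (hb : ∀ a b, lv a ≠ lv b → G a b = 0) (p : ℕ → Prop) [DecidablePred p]
    (x : L → ℝ) : qq G (fun a => if p (lv a) then x a else 0) ≤ qq G x :=
  le_of_eq_of_le (congrArg _ (funext fun a => by simp [P057TE.ez, rs]))
    ((P057TE.qq_ez G (rs (fun a => p (lv a)) x)).trans_le
      (P057TE.qq_rs_le hG (fun a b h k => hb a b fun e => k (e ▸ h)) x))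

end

end Vale.Agent.P057EV
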