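import Vale.Agent.P057RG.Num

/-! The ladders of the event. -/

set_option linter.all false

open Vale.Agent.P057TP Vale.Agent.P057RG

namespace Vale.Agent.P057EV

/-- two raised ladders -/
structure Nu (s : ℕ) (N : ℝ) (c1 c2 c : ℕ) (P A X V E : ℕ → ℝ) : Prop where
  lA : Lad s N c2 A
  lX : Lad s N c1 X
  p1 : ∀ e, 1 ≤ P e
  pa : ∀ e, P e ≤ A e
  px : ∀ e, P e ≤ X e
  E0 : ∀ e, 0 ≤ E e
  Ec : ∀ e, A e ^ c2 ≤ E e
  kv : ∀ j i, i ≤ j → X i ^ c1 + (P j + 1) ^ s * s * (P j + 1) * X j ≤ V i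
  cx : ∀ e, e ≤ s → P e + (P e + 1) * V (e + 1) ≤ A e
  vf : ∀ e, V e ≤ P e ^ c
  n3 : ∀ j, (2 * s + 4) * E j ≤ X j
  n4 : ∀ j, j ≤ s → 2 ^ (s + 1) * Real.exp (A (s + 1) ^ 2) ≤ Real.exp (2 * E j)
  n5 : ∀ j, 2 ^ s * (((P j + 1) ^ s * s + 1) * Real.exp (-E j)) ≤ Real.exp (-A j ^ c2)
  kA : ∀ j, Real.exp (-A j) ≤ (1 - 1 / X 0) * Real.exp (-P j)
  sA : P 0 + X 1 ^ c1 ≤ A 0
  rad : Real.exp (P (s + 1)) + (0 + A 0 ^ c2) ≤ Real.exp (X (s + 1))
  fin : ∀ e, X e ^ c1 + (0 + A e ^ c2) ≤ P e ^ c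
  kap : 1 - 1 / P 0 ≤ (1 - 1 / A 0) * (1 - 1 / X 0)

theorem nu5 {s c n : ℕ} {p a : ℝ} (h : 2 * (s : ℝ) + 10 ≤ p) (ha : p ≤ a) (hn : c + 3 ≤ n) :
    2 ^ s * (((p + 1) ^ s * s + 1) * Real.exp (-a ^ n)) ≤ Real.exp (-a ^ c) := by
  have s0 := Nat.cast_nonneg (α := ℝ) s
  have a1 : 1 ≤ a := by linarith
  have h1 : p + 1 ≤ Real.exp p := Real.add_one_le_exp _
  have h2 : 3 * a ^ (c + 2) ≤ a ^ n := (mul_le_mul_of_nonneg_right (show 3 ≤ a by linarith)
    (by positivity)).trans ((pow_succ' _ _).ge.trans (pow_le_pow_right₀ a1 hn))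
  have h3 := one_le_pow₀ (n := s) (show 1 ≤ p + 1 by linarith)
  have h4 := mul_le_mul (pow_le_pow_left₀ (by linarith) h1 s)
    (show (s : ℝ) + 1 ≤ Real.exp p by linarith) (by linarith) (by positivity)
  calc _ ≤ Real.exp p ^ s * (Real.exp p ^ s * Real.exp p * Real.exp (-a ^ n)) := by
        gcongr <;> linarith
    _ = Real.exp ((2 * s + 1) * p - a ^ n) := by
        rw [← Real.exp_nat_mul, ← Real.exp_add, ← Real.exp_add, ← Real.exp_add]; congr 1; ring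
    _ ≤ _ := Real.exp_le_exp.2 (by
        nlinarith [pow_le_pow_right₀ a1 (show c ≤ c + 2 by omega),
          pow_le_pow_right₀ a1 (show 2 ≤ c + 2 by omega)])

theorem exists_nu (s c1 c2 : ℕ) : ∃ c : ℕ, ∀ N P, Lad s N c P →
    ∃ A X V E, Nu s N c1 c2 c P A X V E := by
  obtain ⟨c, -, hR⟩ := exists_room s (c1 + c2 + 2 * s + 10)
  refine ⟨c + 2 * s + 10, fun N P hL => ?_⟩
  have s0 := Nat.cast_nonneg (α := ℝ) s
  obtain ⟨A, X, r⟩ := hR N P (lad_mono hL (by push_cast; linarith))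
  set n := c1 + c2 + 2 * s + 10 with hn0
  have p0 : ∀ e, 2 * (s : ℝ) + 10 ≤ P e := fun e => le_trans (by
    push_cast; linarith [Nat.cast_nonneg (α := ℝ) c]) (hL.big e)
  have p1 : ∀ e, 1 ≤ P e := fun e => by linarith [p0 e]
  have a1 : ∀ e, 2 * P e ≤ A e := fun e => le_trans (by
    nlinarith [p0 e, mul_le_mul_of_nonneg_left (p0 e) (sq_nonneg (P e))]) (r.cub e)
  have a2 : ∀ e, P e ≤ A e := fun e => by linarith [a1 e, p1 e]
  have a3 : ∀ e, 1 ≤ A e := fun e => (p1 e).trans (a2 e)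
  have x1 : ∀ e, A e ≤ X e := fun e => r.two e ▸ le_self_pow₀ (a3 e) (by omega)
  have x2 : ∀ e, P e ≤ X e := fun e => (a2 e).trans (x1 e)
  have x3 : ∀ e, 1 ≤ X e := fun e => (a3 e).trans (x1 e)
  have u0 : ∀ e, X e ≤ X e ^ n := fun e => le_self_pow₀ (x3 e) (by omega)
  have u1 : ∀ e, X e ^ c1 ≤ X e ^ n := fun e => pow_le_pow_right₀ (x3 e) (by omega)
  have u2 : ∀ e, A e ^ c2 ≤ X e ^ n := fun e => (pow_le_pow_left₀ (zero_le_one.trans (a3 e))
    (x1 e) _).trans (pow_le_pow_right₀ (x3 e) (by omega))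
  have u5 : ∀ e, X e ^ n ≤ (X e ^ n) ^ 2 := fun e =>
    le_self_pow₀ ((x3 e).trans (u0 e)) two_ne_zero
  have u3 : ∀ e i, P e + (P e + 1) * (2 * (X i ^ n) ^ 2) ≤ P e ^ 9 * (X i ^ n) ^ 2 := fun e i => by
    have h2 := one_le_pow₀ (n := 2) ((x3 i).trans (u0 i))
    have h3 : P e ^ 2 ≤ P e ^ 9 := pow_le_pow_right₀ (p1 e) (by norm_num)
    linarith [mul_le_mul_of_nonneg_left h2 (zero_le_one.trans (p1 e)), mul_le_mul_of_nonneg_right
      (show 3 * P e + 2 ≤ P e ^ 9 by nlinarith [p0 e]) (zero_le_one.trans h2)]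
  have u6 : ∀ e i, P e + 2 * (X i ^ n) ^ 2 ≤ P e ^ 9 * (X i ^ n) ^ 2 := fun e i => by
    linarith [u3 e i, mul_nonneg (zero_le_one.trans (p1 e)) (sq_nonneg (X i ^ n))]
  have u4 : ∀ e, 2 * (X e ^ n) ^ 2 ≤ P e ^ (c + 2 * s + 10) := fun e => by
    linarith [u6 e e, (r.fin e).trans (pow_le_pow_right₀ (p1 e)
      (show c ≤ c + 2 * s + 10 by omega)), p1 e]
  have y0 : 1 / X 0 ≤ 1 / (2 * P 0) := one_div_le_one_div_of_le (by linarith [p1 0])
    ((a1 0).trans (x1 0))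
  have y1 : 1 / A 0 ≤ 1 / (2 * P 0) := one_div_le_one_div_of_le (by linarith [p1 0]) (a1 0)
  have y2 : 1 / (2 * P 0) ≤ 1 / 2 := one_div_le_one_div_of_le two_pos (by linarith [p1 0])
  have E0 : ∀ j, 0 ≤ A j ^ n := fun j => pow_nonneg (zero_le_one.trans (a3 j)) _
  refine ⟨A, X, fun e => 2 * (X e ^ n) ^ 2, fun e => A e ^ n, lad_mono r.l1 (Nat.cast_le.2
    (by omega)), lad_mono r.l2 (Nat.cast_le.2 (by omega)), p1, a2, x2, E0,
    fun e => pow_le_pow_right₀ (a3 e) (by omega), fun j i h => ?_,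
    fun e he => (u3 e _).trans (r.stp e he), u4, fun j => ?_, fun j h => ?_,
    fun j => nu5 (p0 j) (a2 j) (by omega), fun j => ?_,
    by linarith [(u6 0 1).trans (r.stp 0 (by omega)), u1 1, u5 1, sq_nonneg (X 1 ^ n)],
    le_trans ?_ r.rad, fun e => by linarith [u1 e, u2 e, u5 e, u4 e], ?_⟩
  · have h1 : X j ≤ X i := lad_le r.l2 h
    have h2 : P j + 1 ≤ X j ^ 2 := by nlinarith [x2 j, p0 j]
    have := p1 j
    have := x3 j
    have h3 : (P j + 1) ^ s * s * (P j + 1) * X j ≤ X i ^ n :=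
      calc _ ≤ (X j ^ 2) ^ s * X j * X j ^ 2 * X j := by
            gcongr
            linarith [x2 j, p0 j]
        _ = X j ^ (2 * s + 4) := by ring
        _ ≤ _ := (pow_le_pow_right₀ (x3 j) (by omega)).trans (pow_le_pow_left₀ (by linarith) h1 _)
    linarith [u1 i, u5 i]
  · rw [r.two]
    exact (mul_le_mul_of_nonneg_right (show _ ≤ A j by linarith [a2 j, p0 j]) (E0 j)).trans
      ((pow_succ' _ _).ge.trans (pow_le_pow_right₀ (a3 j) (by omega)))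
  · refine (mul_le_mul_of_nonneg_right (pow_le_pow_left₀ zero_le_two (b := Real.exp 1)
      (by linarith [Real.add_one_le_exp 1]) _) (Real.exp_pos _).le).trans ?_
    rw [← Real.exp_nat_mul, ← Real.exp_add]
    have n1 : A j ^ 2 ≤ A j ^ n := pow_le_pow_right₀ (a3 j) (by omega)
    have n2 : A j ≤ A j ^ 2 := le_self_pow₀ (a3 j) two_ne_zero
    have := pow_le_pow_left₀ (zero_le_one.trans (a3 (s + 1)))
      (lad_le r.l1 (show j ≤ s + 1 by omega)) 2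
    push_cast
    exact Real.exp_le_exp.2 (by linarith [a2 j, p0 j])
  · have h1 : Real.exp (-A j) * 2 ≤ Real.exp (-P j) := by
      refine (mul_le_mul_of_nonneg_left (show 2 ≤ Real.exp 1 by
        linarith [Real.add_one_le_exp 1]) (Real.exp_pos _).le).trans ?_
      rw [← Real.exp_add]
      exact Real.exp_le_exp.2 (by linarith [a1 j, p1 j])
    linarith [mul_le_mul_of_nonneg_right (y0.trans y2) (Real.exp_pos (-P j)).le]
  · linarith [u2 0, mul_le_mul_of_nonneg_right (one_le_pow₀ (n := 2) (p1 0))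
      (zero_le_one.trans ((x3 0).trans (u0 0)))]
  · have h1 : 1 / P 0 = 1 / (2 * P 0) + 1 / (2 * P 0) := by
      have := p1 0
      field_simp; norm_num
    have h2 : 0 ≤ 1 / A 0 * (1 / X 0) := by have := x3 0; have := a3 0; positivity
    linarith

end Vale.Agent.P057EV
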