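import Vale.Agent.P057EV.Pin
import Vale.Agent.P057RG.Fin
import Vale.Agent.P057EV.Nu
import Vale.Agent.P057TE.Cert

/-! The event from localisation, new coordinates and a sheet. -/

set_option linter.all false

open Matrix Finset MvPolynomial
open Vale.Agent.P267.H775 Vale.Agent.P057G Vale.Agent.P057PC Vale.Agent.P057TP Vale.Agent.P057RG

namespace Vale.Agent.P057EV

noncomputable section

variable {T T₀ T' : Tow} {s s' j : ℕ} {N : ℝ} {φ : T.ι → MvPolynomial T₀.ι ℤ} {k : T.ι → ℤ}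
  {I : MvPolynomial T₀.ι ℤ}

theorem small (hT : T.Ok s N) (h0 : T₀.Ok s' N) (hφ : Mor j T₀ T φ)
    (hk : ∀ a, T.lv a ≠ j → k a = 0) (hI : I.IsWeightedHomogeneous T₀.lv j)
    (hc : ∀ y, T₀.Ball j y → |∑ a, (k a : ℝ) * eval (ap φ y) (T.q a) - aeval y I| ≤ 1)
    (h1 : 1 ≤ j) (hj : j ≤ s) {E : ℝ} (E0 : 0 ≤ E) {y : T₀.ι → ℝ}
    (hy : ∀ e, e < j → Real.exp E ^ (2 * s) * T₀.ln e y ≤ 1) :
    |aeval y I - ∑ a, (k a : ℝ) * eval (ap φ y) (T.q a)| ≤ Real.exp (-E) := by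
  have τ1 := Real.one_le_exp E0
  set τ := Real.exp E with hτ
  have h2 := hc (fun a => τ ^ T₀.lv a * y a) fun e he => by
    rw [P057TE.ln_scale h0, ← pow_mul]
    exact (mul_le_mul_of_nonneg_right (pow_le_pow_right₀ τ1 (by omega))
      (qq_nonneg h0.pd.posSemidef _)).trans (hy e he)
  have h3 : ∀ a, (k a : ℝ) * eval (ap φ fun a => τ ^ T₀.lv a * y a) (T.q a) =
      τ ^ j * (k a * eval (ap φ y) (T.q a)) := fun a => by
    by_cases h : T.lv a = j
    · have := P057TE.aeval_scale (hT.hom a) τ (ap φ y)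
      rw [aeval_eq_eval, aeval_eq_eval, h] at this
      rw [mul_left_comm, ← this]
      exact congrArg _ (eval₂Hom_congr' rfl (fun b hb _ =>
        P057TE.aeval_scale (hφ.hom b (h ▸ hT.low a b hb)) τ y) rfl)
    · simp [hk a h]
  simp only [h3, P057TE.aeval_scale hI, ← mul_sum, ← mul_sub, abs_mul] at h2
  rw [abs_of_nonneg (by positivity)] at h2
  rw [abs_sub_comm, Real.exp_neg, ← one_div, le_div_iff₀' (by positivity)]
  exact (mul_le_mul_of_nonneg_right (le_self_pow₀ τ1 (by omega)) (abs_nonneg _)).trans h2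

/-- a function on the upper levels transported along a bijection -/
def tr {R : Type} [Zero R] (e : {a // j ≤ T.lv a} ≃ {a // j ≤ T'.lv a}) (k : T.ι → R) (b : T'.ι) :
    R := if h : j ≤ T'.lv b then k (e.symm ⟨b, h⟩) else 0

variable {e : {a // j ≤ T.lv a} ≃ {a // j ≤ T'.lv a}}

theorem tr_e {R : Type} [Zero R] (k : T.ι → R) (a : {a // j ≤ T.lv a}) : tr e k (e a) = k a := by
  simp [tr, (e a).2]

theorem sum_tr (hk : ∀ a, T.lv a ≠ j → k a = 0) {f : T.ι → ℝ} {f' : T'.ι → ℝ}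
    (h : ∀ a : {a // j ≤ T.lv a}, T.lv a = j → f' (e a) = f a) :
    ∑ b, (tr e k b : ℤ) * f' b = ∑ a, k a * f a :=
  sum_up e (fun a => by
    rw [tr_e]
    by_cases c : T.lv a = j
    exacts [by rw [h a c], by simp [hk a c]])
    (fun a ha => by simp [hk a (by omega)]) fun b hb => by simp [tr, hb]

theorem tr_lv (he : ∀ a, T'.lv (e a) = T.lv a) (hk : ∀ a, T.lv a ≠ j → k a = 0) (b : T'.ι)
    (h : T'.lv b ≠ j) : tr e k b = 0 := by
  unfold tr
  split_ifs with c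
  · exact hk _ (by rwa [← he, e.apply_symm_apply])
  · rfl

theorem tr_prim (hk : ∀ a, T.lv a ≠ j → k a = 0) {w : T.ι → ℤ} (h : k ⬝ᵥ w = 1) :
    tr e k ⬝ᵥ tr e w = 1 := by
  have := sum_tr (e := e) hk (f := toR w) (f' := toR (tr e w)) fun a _ => by
    rw [toR_apply, tr_e, toR_apply]
  rw [← h]
  simp only [toR_apply] at this
  exact_mod_cast this

theorem tr_dual (hT : T'.Ok s N) (hG : ∀ a b, T'.G (e a) (e b) = T.G a b)
    (hk : ∀ a, T.lv a ≠ j → k a = 0) {K : ℝ} (K0 : 0 ≤ K)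
    (h : ∀ x : T.ι → ℝ, (toR k ⬝ᵥ x) ^ 2 ≤ K * qq T.G x) (x : T'.ι → ℝ) :
    (toR (tr e k) ⬝ᵥ x) ^ 2 ≤ K * qq T'.G x := by
  have e1 : ∀ a : {a // j ≤ T.lv a}, (if j ≤ T'.lv (e a) then x (e a) else 0) = tr e.symm x a :=
    fun a => by simp [tr, a.2, (e a).2]
  have e2 : ∀ a, ¬ j ≤ T.lv a → tr e.symm x a = 0 := fun a ha => dif_neg ha
  refine le_of_eq_of_le (congrArg (· ^ 2) (sum_tr hk fun a _ => ?_)) ((h (tr e.symm x)).trans
    (mul_le_mul_of_nonneg_left (le_of_eq_of_le (Eq.symm ?_) (qq_lev hT.pd hT.blk (j ≤ ·) x)) K0))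
  · rw [← e1, if_pos (e a).2]
  · simp only [qq, dotProduct, mulVec]
    refine sum_up e (fun a => ?_) (fun a ha => by rw [e2 a ha, zero_mul])
      fun b hb => by rw [if_neg hb, zero_mul]
    rw [e1, sum_up e (f := fun b => T.G a b * tr e.symm x b) (fun b => by rw [e1, hG])
      (fun a ha => by rw [e2 a ha, mul_zero]) fun b hb => by rw [if_neg hb, mul_zero]]

variable {W S : Type} [Fintype W] [DecidableEq W] [Fintype S]

theorem tr_top (hT : T.Ok s N) {Z : Sys T W S} {Z' : Sys T' W S} {Ψ : Fam ℤ T.ι T'.ι W S}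
    (hZ : Z.Ok) (hZ' : Z'.Ok) (hP : Pull j Z' Z Ψ e) {ε : T₀.ι → T'.ι}
    (h : ∀ a, T.lv a < j → Ψ.top a = rename ε (φ a)) (hk : ∀ a, T.lv a ≠ j → k a = 0)
    (y : T'.ι → ℝ) : ∑ b, (tr e k b : ℤ) * eval y (T'.q b) =
      ∑ a, k a * eval (ap φ (y ∘ ε)) (T.q a) := sum_tr hk fun a ha => by
  rw [← hZ'.top, Fam.top, hP.fn, ← Fam.top, Fam.top_cmp, eval_bind, hZ.top]
  exact eval₂Hom_congr' rfl (fun b hb _ => by
    rw [ev_int, h b (ha ▸ hT.low a b hb), aeval_rename]; rfl) rfl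

theorem card_KK {X : ℝ} (hj : j ≤ s) (h : (Fintype.card W + Fintype.card S : ℝ) ≤ X) :
    (Fintype.card (Ix W s j) : ℝ) ≤ (X + 1) ^ s * s ∧
      (Fintype.card (KK W S s j) : ℝ) ≤ (X + 1) ^ s * s * (X + 1) := by
  have h2 : (0 : ℝ) ≤ Fintype.card W := Nat.cast_nonneg _
  have h3 : (0 : ℝ) ≤ Fintype.card S := Nat.cast_nonneg _
  have h4 : 0 ≤ X + 1 := by linarith
  have h1 : (Fintype.card (Ix W s j) : ℝ) ≤ (X + 1) ^ s * s := by
    rw [Fintype.card_prod, Fintype.card_subtype, Fintype.card_fin, Nat.cast_mul]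
    refine mul_le_mul ((Nat.cast_le.2 (P057SH.card_faces s)).trans ?_) (Nat.cast_le.2 (by omega))
      (Nat.cast_nonneg _) (by positivity)
    push_cast
    gcongr
    linarith
  refine ⟨h1, ?_⟩
  rw [Fintype.card_prod, Fintype.card_option]
  push_cast
  exact mul_le_mul h1 (by linarith) (by positivity) (by positivity)

/-- new coordinates after the localisation -/
theorem demote {C : Type} {cl : W → C} {m c1 c2 c : ℕ} {P A X V E : ℕ → ℝ}
    (r : Nu s N c1 c2 c P A X V E) {Z : Sys T W S} {H : (Lb T cl S m → ℤ) → ℝ} {B κ σ : ℝ}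
    {I : MvPolynomial T.ι ℤ} (hT : T.Ok s N) (hZ : Z.Ok) (js : j ≤ s) (jm : j < m)
    (hn : (Fintype.card W + Fintype.card S : ℝ) ≤ P j) (hS : Z.St cl m H B κ σ)
    (hk : ∀ a, T.lv a ≠ j → k a = 0) (hI : I.IsWeightedHomogeneous T.lv j)
    (h1 : ∀ y, T.Ball j y → |aeval y I - ∑ a, k a * eval y (T.q a)| ≤ Real.exp (-E j))
    (h2 : ∀ o B (y v : T.ι → ℝ), (∀ b, T.lv b < j → v b = y b - eval y (Z.fam.at' o B b)) →
      qq T.G v ≤ Real.exp (2 * E j) → |aeval y I - ∑ a, k a * eval y (T.q a)| ≤ Real.exp (-E j)) :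
    ∃ (Z' : Sys (TT Z s j k I (Real.exp (X j))) W S) (x : Lb (one j) cl S m → ℝ),
      (TT Z s j k I (Real.exp (X j))).Ok s N ∧ Z'.Ok ∧ Up j (TT Z s j k I (Real.exp (X j))) T ∧
      (∀ R, Sub cl m Z' Z (Fam.ren W S Sum.inl) R 0) ∧
      Z'.St cl m (fun z => H ((Fam.ren W S Sum.inl).sub cl m z)) B κ σ ∧
      (∀ i, (TT Z s j k I (Real.exp (X j))).dm i ≤ T.dm i + (P j + 1) ^ s * s * (P j + 1) * X j ∧
        (TT Z s j k I (Real.exp (X j))).yy N i ≤ T.yy N i + (P j + 1) ^ s * s * (P j + 1) * X j) ∧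
      (∀ y, (TT Z s j k I (Real.exp (X j))).Ball j y →
        |eval y ((Z'.df j (Sum.elim k 0) (JJ s j I)).top ())| ≤ Real.exp (-A j ^ c2)) ∧
      ∀ z, Z'.nlo cl m j z ≤ Real.exp (A (s + 1) ^ 2) → ∀ l,
        |(Z'.df j (Sum.elim k 0) (JJ s j I)).sb (toR z) l - x l| ≤ Real.exp (-A j ^ c2) := by
  have x1 := (r.p1 j).trans (r.px j)
  have Λ1 := Real.one_le_exp (zero_le_one.trans x1)
  have pd : (Real.exp (X j) • (1 : Matrix (KK W S s j) _ ℝ)).PosDef :=
    PosDef.one.smul (Real.exp_pos _)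
  obtain ⟨t2, -, d2, x, -, hx, z2, sb2, st2⟩ := P057AD.add s N T C W S cl m Z _ _ _ _
    (KK W S s j) lk (QQ T.lv (Z.df j k (J0 W S I))) (Real.exp (X j) • 1) hT hZ
    (fun κ => ⟨Nat.succ_pos _, (lk_lt κ).trans jm, (lk_lt κ).le.trans js⟩) (fun _ => hom_cq _ _ _)
    pd
    (fun a b h => by rw [Matrix.smul_apply, one_apply_ne fun e => h (congrArg lk e), smul_zero])
    (fun z hz => by
      obtain ⟨i, hi⟩ := Function.ne_iff.1 hz
      refine le_trans (one_le_mul_of_one_le_of_one_le Λ1 ?_) (sq_le_qq (Real.exp_pos _).le _ i)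
      rw [toR_apply]
      exact_mod_cast (one_le_sq_iff_one_le_abs _).2 (Int.one_le_abs hi)) hS
  obtain ⟨q1, q2⟩ := card_KK (W := W) (S := S) js hn
  obtain ⟨x', hx'⟩ := pin_pt (ρ := 2 ^ (s + 1) * Real.exp (A (s + 1) ^ 2)) hT hZ js hk hI
    (Real.exp_pos (X j)) x hx (Real.exp_pos (-E j)).le ((r.n4 j js).trans (by
      rw [← Real.exp_nat_mul, ← Real.exp_add]
      push_cast
      exact Real.exp_le_exp.2 (by
        linarith [r.n3 j, mul_nonneg (Nat.cast_nonneg (α := ℝ) s) (r.E0 j)])))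
    fun o B y v g1 g2 => h2 o B y v g1 (g2.trans (r.n4 j js))
  refine ⟨_, fun l => dlt (x' l.bs) l.fc, t2, z2, P057AD.up_add pd lk_lt, sb2, st2, fun i => ?_,
    fun (y : T.ι ⊕ KK W S s j → ℝ) hy => ?_, fun z hz l => (pin_of t2 z2 js jm (ok_df z2 (by
      rintro (a | a) h
      exacts [hk a h, rfl]) (ok_JJ hI)) x' (by positivity) hx' z hz l).trans
        (le_trans (by gcongr) (r.n5 j))⟩
  · have g2 : ((univ.filter fun κ : KK W S s j => lk κ = i).card : ℝ) ≤ _ :=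
      (Nat.cast_le.2 (card_le_univ _)).trans q2
    have g3 : (bk (Real.exp (X j) • (1 : Matrix (KK W S s j) _ ℝ)) fun κ => lk κ = i) =
        Real.exp (X j) • 1 := by
      ext a b; simp [bk, one_apply, Subtype.ext_iff]
    have g4 := (Nat.cast_nonneg _).trans g2
    rw [(d2 i).1, (d2 i).2, g3, det_smul, det_one, mul_one, Real.log_pow, Real.log_exp,
      Fintype.card_subtype]
    constructor <;> linarith [mul_le_mul_of_nonneg_left x1 g4,
      mul_le_mul_of_nonneg_right g2 (zero_le_one.trans x1)]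
  · have g1 : ∑ a, (Sum.elim k 0 a : ℤ) * eval y ((TT Z s j k I (Real.exp (X j))).q a) =
        ∑ a, k a * eval (y ∘ Sum.inl) (T.q a) := by
      refine (Fintype.sum_sum_type _).trans ?_
      simp only [Sum.elim_inl, Sum.elim_inr, Pi.zero_apply, Int.cast_zero, zero_mul,
        sum_const_zero, add_zero]
      exact sum_congr rfl fun a _ => congrArg _ (eval_rename _ _ _)
    exact le_trans (le_of_eq (congrArg abs ((top_df z2 y).trans (congrArg₂ (· - ·)
      ((congrArg (aeval y) top_JJ).trans (aeval_rename _ _ _)) g1))))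
      ((h1 _ (P057AD.ap_inl y ▸ (P057AD.mor_add pd j).ball y hy)).trans
        (Real.exp_le_exp.2 (neg_le_neg (r.Ec j))))

theorem event (hX : XLOC s) (hH : SHEET s) : EVENT s := by
  obtain ⟨c1, hX⟩ := hX
  obtain ⟨c2, hH⟩ := hH
  obtain ⟨c, hR⟩ := exists_nu s c1 c2
  refine ⟨c, fun N P T C W S _ _ _ cl m j Z H B κ σ K D Y hL hT hC hZ j1 jm hn hB hκ
    hσ hS K1 hK ⟨T₀, φ, k, I, g1, g2, g3, g4, ⟨w, g5⟩, g6, g7, g8⟩ hD => ?_⟩
  obtain ⟨A, X, V, E, r⟩ := hR N P hL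
  have js : j ≤ s := by
    by_contra h
    simp [funext fun a => g4 a (by have := hT.le a; omega), dotProduct] at g5
  have x3 : ∀ e, 1 ≤ X e := fun e => (r.p1 e).trans (r.px e)
  obtain ⟨T1, Z1, Ψ1, ε, e, t1, z1, up1, pl, sb1, st1, d1, f1, f2, f3, -⟩ := hX N X T T₀ φ C W S cl
    m j Z H B κ σ r.lX hT (cx_mono hC r.px) hZ j1 jm.le (by omega) g1 (fun i => by
      by_cases h : i < j
      · exact ⟨(g3 i h).1.trans ((hD i h).1.trans (r.px i)),
          (g3 i h).2.trans ((hD i h).2.trans (r.px i))⟩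
      · have : IsEmpty {a // T₀.lv a = i} := ⟨fun a => by have := g1.le a; have := a.2; omega⟩
        rw [← P057TE.card_lv, Tow.yy, det_isEmpty, Fintype.card_eq_zero, Real.log_one]
        split_ifs with h1
        · rw [h1]; constructor <;> linarith [r.lX.lN, x3 1, Nat.cast_zero (R := ℝ)]
        · constructor <;> linarith [x3 i, Nat.cast_zero (R := ℝ)]) g2 (hn.trans (r.px j))
    (hB.trans (Real.exp_le_exp.2 (r.px j)))
    ((Real.exp_le_exp.2 (neg_le_neg (r.px j))).trans hκ)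
    ((Real.exp_le_exp.2 (neg_le_neg (r.px 0))).trans hσ) hS
  clear hX
  have k1 := tr_lv pl.lv g4
  have i1 : (rename ε I).IsWeightedHomogeneous T1.lv j := P057AD.wh_rename g7 fun a => (f1 a).1
  have sm : ∀ y : T1.ι → ℝ, (∀ i, i < j → Real.exp (X j) * T₀.ln i (y ∘ ε) ≤
      Real.exp (2 * E j)) → |aeval y (rename ε I) - ∑ a, (tr e k a : ℤ) * eval y (T1.q a)| ≤
        Real.exp (-E j) := fun y hy => by
    rw [aeval_rename, tr_top hT hZ z1 pl f3 g4]
    refine small hT g1 g2 g4 g7 g8 j1 js (r.E0 j) fun i hi =>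
      le_of_mul_le_mul_left ?_ (Real.exp_pos (X j))
    rw [mul_left_comm, mul_one]
    refine (mul_le_mul_of_nonneg_left (hy i hi) (by positivity)).trans ?_
    rw [← Real.exp_nat_mul, ← Real.exp_add]
    push_cast
    exact Real.exp_le_exp.2 (by linarith [r.n3 j, r.E0 j])
  obtain ⟨Z2, x, t2, z2, up2, sb2, st2, d2, b1, b2⟩ := demote r t1 z1 js jm hn st1 k1 i1
    (fun y hy => sm y fun i hi => by
      refine le_trans (le_of_eq (congrArg (_ * qq T₀.G ·) (funext fun a => ?_)))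
        ((f2 _).trans ((hy i hi).trans (Real.one_le_exp (by linarith [r.E0 j]))))
      rw [Function.comp_apply, (f1 a).1, Tow.ps, Tow.ps, ← z1.top, Fam.top, (f1 a).2.2, map_rename,
        MvPolynomial.map_map, constantCoeff_comp_C, MvPolynomial.map_id, eval_rename]
      rfl)
    fun o B y v h1 h2 => sm y fun i hi => by
      refine le_trans (mul_le_mul_of_nonneg_left (le_of_eq_of_le (congrArg (qq T₀.G)
        (funext fun a => ?_)) (qq_lev g1.pd g1.blk (· = i) (v ∘ ε))) (Real.exp_pos _).le) ((f2 v).trans h2)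
      split_ifs with h
      · rw [Function.comp_apply, h1 _ (by rw [(f1 a).1, h]; exact hi), Fam.at', (f1 a).2.2,
          map_rename, P057NA.map_evA, eval_rename]
        rfl
      · rfl
  replace up2 := up_trans up2 up1
  have d3 : ∀ i, i < j → (TT Z1 s j (tr e k) (rename ε I) (Real.exp (X j))).dm i ≤
      D i + V (i + 1) ∧ (TT Z1 s j (tr e k) (rename ε I) (Real.exp (X j))).yy N i ≤
      Y i + (D i + 1) * V (i + 1) := fun i hi => by
    have h1 := r.kv j (i + 1) hi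
    have h2 := (dm_nonneg T₀ i).trans (g3 i hi).1
    have h3 : 0 ≤ (P j + 1) ^ s * s * (P j + 1) * X j := by
      have := r.p1 j; have := x3 j; positivity
    constructor <;> linarith [(d2 i).1, (d2 i).2, (d1 i hi).1, (d1 i hi).2, (g3 i hi).1, (g3 i hi).2,
      mul_le_mul_of_nonneg_right (g3 i hi).1 (pow_nonneg (zero_le_one.trans (x3 (i + 1))) c1),
      mul_le_mul_of_nonneg_left h1 (add_nonneg h2 zero_le_one), mul_nonneg h2 h3]
  have v0 : ∀ i, 0 ≤ V i := fun i => le_trans (by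
    have := r.p1 i; have := x3 i; positivity) (r.kv i i le_rfl)
  have κ0 := (Real.exp_pos _).trans_le hκ
  obtain ⟨T3, Z3, Ψ3, t3, z3, up3, sb3, st3, d4, d5, d6⟩ := hH N A _ C W S cl m j _ _ _ _ _ K
    (Sum.elim (tr e k) 0) (JJ s j (rename ε I)) x r.lA t2 (fun i => by
      by_cases h : i < j
      · constructor <;> linarith [(d3 i h).1, (d3 i h).2, (hD i h).1, (hD i h).2, r.cx i (by omega),
          mul_le_mul_of_nonneg_right (hD i h).1 (v0 (i + 1)),
          mul_nonneg (zero_le_one.trans (r.p1 i)) (v0 (i + 1))]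
      · rw [up_dm up2 (not_lt.1 h), up_yy up2 N (not_lt.1 h)]
        exact cx_mono hC r.pa i) z2 jm (hn.trans (r.pa j)) (hB.trans (Real.exp_le_exp.2 (r.pa j)))
    ((r.kA j).trans (mul_le_mul_of_nonneg_left hκ (sub_nonneg.2
      ((div_le_one (one_pos.trans_le (x3 0))).2 (x3 0)))))
    (le_trans (by
      rw [← Real.exp_add]
      exact Real.exp_le_exp.2 (by linarith [r.sA]))
      (mul_le_mul_of_nonneg_right hσ (Real.exp_pos _).le))
    st2 K1 (hK.trans (r.pa j)) (by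
      rintro (a | a) h
      exacts [k1 a h, rfl])
    ⟨Sum.elim (tr e w) 0, (P057AD.dot_inl _ _).trans (tr_prim g4 g5)⟩
    (fun v => (congrArg (· ^ 2) (P057AD.dot_inl' _ v)).trans_le ((tr_dual t1 pl.gr g4
      (zero_le_one.trans K1) g6 _).trans (mul_le_mul_of_nonneg_left
        (P057AD.qq_le_gad _ (PosDef.one.smul (Real.exp_pos _)) _ v) (zero_le_one.trans K1))))
    (ok_JJ i1) (vars_JJ fun v hv => by
      obtain ⟨a, -, rfl⟩ := mem_vars_rename _ _ hv
      have := g1.le a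
      rw [(f1 a).1]; omega) b1 b2
  have sb4 := sub_comp (sb2 _) (sub_mono sb3 (Real.exp_le_exp.2 (r.pa (s + 1))) le_rfl)
  refine ⟨T3, Z3, _, t3, z3, up_trans up3 (up_mono hT t2 up2 j.le_succ),
    sub_mono (sub_comp (sub_mono sb1 r.rad le_rfl) sb4) le_rfl (r.fin 0), ?_, fun i hi => ?_, ?_, ?_⟩
  · simp only [sb1.ok.sub_cmp sb4.ok, (sb2 0).ok.sub_cmp sb3.ok]
    refine st_mono t3 z3 st3 ((mul_le_mul_of_nonneg_right r.kap κ0.le).trans_eq (mul_assoc _ _ _)) ?_
    rw [mul_assoc, ← Real.exp_add]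
    exact mul_le_mul_of_nonneg_left (Real.exp_le_exp.2 (by linarith [r.fin 1]))
      ((Real.exp_pos _).trans_le hσ).le
  · rw [(d4 i hi).1, (d4 i hi).2]
    exact ⟨(d3 i hi).1.trans (add_le_add_right (r.vf _) _), (d3 i hi).2.trans (add_le_add_right
      (mul_le_mul_of_nonneg_left (r.vf _) (by linarith [dm_nonneg T₀ i, (g3 i hi).1])) _)⟩
  · rw [d5, up_dm up2 le_rfl]
  · rw [up_yy up2 N le_rfl] at d6
    linarith [Real.log_nonneg K1]

end

end Vale.Agent.P057EV
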