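import Vale.Agent.P057EV.Dem

/-! The lower order terms of a form become new coordinates. -/

set_option linter.all false

open Matrix Finset MvPolynomial
open Vale.Agent.P267.H775 Vale.Agent.P057G Vale.Agent.P057PC Vale.Agent.P057TP

namespace Vale.Agent.P057EV

noncomputable section

variable {C W S ι : Type} [Fintype W] [DecidableEq W] [Fintype S] {lv : ι → ℕ} {s j : ℕ}

/-- the new coordinates -/
abbrev KK (W S : Type) (s j : ℕ) := Ix W s j × Option S

instance : DecidableEq (KK W S s j) := Classical.decEq _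

/-- their levels -/
def lk (k : KK W S s j) : ℕ := k.1.2 + 1

/-- their polynomials -/
def QQ (lv : ι → ℕ) (Φ : Fam ℝ Unit ι W S) (k : KK W S s j) : MvPolynomial ι ℝ :=
  cq lv (Φ.fn k.2 ()) k.1.1 (lk k)

/-- a constant family -/
def J0 (W S : Type) (I : MvPolynomial ι ℤ) : Fam ℤ Unit ι W S := ⟨fun _ _ => map MvPolynomial.C I⟩

/-- the integer family in the old and new coordinates -/
def JJ (s j : ℕ) (I : MvPolynomial ι ℤ) : Fam ℤ Unit (ι ⊕ KK W S s j) W S :=
  ⟨fun o _ => rename Sum.inl (map MvPolynomial.C I) - ∑ q : Ix W s j,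
    if q.1.1.card + (q.2 + 1) ≤ j then
      MvPolynomial.C (mon q.1 (j - (q.2 + 1))) * X (Sum.inr (q, nb o q)) else 0⟩

variable {I : MvPolynomial ι ℤ}

theorem lk_lt (k : KK W S s j) : lk k < j := by have := k.1.2.2; unfold lk; omega

theorem ok_J0 (h : I.IsWeightedHomogeneous lv j) : (J0 W S I).Ok (fun _ => j) lv :=
  ⟨fun _ _ => JH.of_hom h, fun _ _ => rfl⟩

theorem ok_JJ (h : I.IsWeightedHomogeneous lv j) :
    (JJ (W := W) (S := S) s j I).Ok (fun _ => j) (Sum.elim lv lk) := by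
  refine ⟨fun o _ => JH.sub ((JH.of_hom h).rename fun _ => rfl) (JH.sum _ fun q _ => ?_),
    fun t _ => ?_⟩
  · split_ifs with k
    · have := (JH.C (mon_hom (R := ℤ) (A := q.1.1) (d := j - (q.2 + 1)) (by omega))).mul
        (JH.X (Sum.elim lv lk) (Sum.inr (q, nb o q)))
      rwa [show j - (q.2 + 1) + Sum.elim lv lk (Sum.inr (q, nb o q)) = j from
        Nat.sub_add_cancel (by omega)] at this
    · exact JH.zero _ _
  · simp only [JJ, map_sub, map_sum]
    refine congrArg _ (sum_congr rfl fun q _ => ?_)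
    split_ifs with k
    · simp only [map_mul, map_C, map_X, kt_mon]
      split_ifs with k2
      · simp
      · rw [nb, nb, if_pos (by omega), if_pos (by omega)]
    · rfl

theorem vars_JJ (h : ∀ v ∈ I.vars, lv v < j) (o : Option S) :
    ∀ v ∈ ((JJ (W := W) s j I).fn o ()).vars, Sum.elim lv lk v < j := fun v hv => by
  classical
  rcases mem_union.1 (vars_sub_subset _ hv) with k | k
  · obtain ⟨a, h1, rfl⟩ := mem_vars_rename _ _ k
    exact h a (vars_map _ _ h1)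
  · obtain ⟨q, -, h1⟩ := mem_biUnion.1 (vars_sum_subset _ _ k)
    split_ifs at h1
    · have := vars_mul _ _ h1
      rw [vars_C, empty_union, vars_X, mem_singleton] at this
      exact this ▸ lk_lt _
    · simp at h1

theorem top_J0 : (J0 W S I).top () = I := by
  rw [Fam.top, J0, MvPolynomial.map_map, constantCoeff_comp_C, MvPolynomial.map_id]

theorem top_JJ : (JJ (W := W) (S := S) s j I).top () = rename Sum.inl I := by
  simp only [Fam.top, JJ, map_sub, map_sum, map_rename, MvPolynomial.map_map, constantCoeff_comp_C,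
    MvPolynomial.map_id]
  rw [sum_eq_zero fun q _ => ?_, sub_zero]
  split_ifs with k
  · rw [map_mul, map_C, constantCoeff_eq, (mon_hom (by omega)).coeff_eq_zero
      (by have := q.2.2; simp; omega), map_zero, zero_mul]
  · exact map_zero _

theorem at_J0 (o : Option S) (B : Finset W) : (J0 W S I).at' o B () = I := by
  rw [Fam.at', J0, MvPolynomial.map_map, show (evA B).comp MvPolynomial.C = RingHom.id ℤ from
    RingHom.ext (evA_C B), MvPolynomial.map_id]

theorem at_JJ (o : Option S) (B : Finset W) (y : ι ⊕ KK W S s j → ℝ) :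
    aeval y ((JJ s j I).at' o B ()) = aeval (y ∘ Sum.inl) I - ∑ q : Ix W s j,
      if q.1.1 ⊆ B ∧ q.1.1.card + (q.2 + 1) ≤ j then y (Sum.inr (q, nb o q)) else 0 := by
  have := at_J0 (I := I) o B
  simp only [Fam.at', J0] at this
  simp only [Fam.at', JJ, map_sub, map_sum, map_rename, this, aeval_rename]
  refine congrArg _ (sum_congr rfl fun q _ => ?_)
  by_cases k : q.1.1.card + (q.2 + 1) ≤ j <;> by_cases k2 : q.1.1 ⊆ B <;> simp [k, k2, evA_mon]

variable {T : Tow} {cl : W → C} {m : ℕ} {N : ℝ} {Z : Sys T W S} {k : T.ι → ℤ}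
  {J : Fam ℤ Unit T.ι W S}

theorem ok_df (hZ : Z.Ok) (hk : ∀ a, T.lv a ≠ j → k a = 0) (hJ : J.Ok (fun _ => j) T.lv) :
    (Z.df j k J).Ok (fun _ => j) T.lv := by
  refine ⟨fun o u => JH.sub (JH.lamZ (hJ.hom o u)) (JH.sum _ fun a _ => ?_), fun t u => ?_⟩
  · by_cases h : T.lv a = j
    · simpa only [zero_add, h] using (JH.C (isHomogeneous_C _ (k a : ℝ))).mul (hZ.fam.hom o a)
    · simpa [hk a h] using JH.zero _ _
  · simp only [Sys.df, map_sub, map_sum, map_mul, map_C, hZ.fam.pure]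
    exact congrArg (· - _) ((hJ.cast (R := ℝ)).pure t u)

theorem ev_int {κ : Type} (y : κ → ℝ) (p : MvPolynomial κ ℤ) :
    eval y (map (Int.castRingHom ℝ) p) = aeval y p := by
  rw [eval_map]; rfl

theorem at_df (o : Option S) (B : Finset W) (y : T.ι → ℝ) : eval y ((Z.df j k J).at' o B ()) =
    aeval y (J.at' o B ()) - ∑ a, k a * eval y (Z.fam.at' o B a) := by
  rw [← ev_int, ← Fam.at_cast]
  simp only [Sys.df, Fam.at', map_sub, map_sum, map_mul, map_C, evA_C, eval_C]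
  rfl

theorem top_df (hZ : Z.Ok) (y : T.ι → ℝ) : eval y ((Z.df j k J).top ()) =
    aeval y (J.top ()) - ∑ a, k a * eval y (T.q a) := by
  rw [← ev_int, ← Fam.top_cast]
  simp only [Sys.df, Fam.top, map_sub, map_sum, map_mul, map_C, constantCoeff_C, eval_C, ← hZ.top]
  rfl

/-- the tower with the new coordinates -/
abbrev TT (Z : Sys T W S) (s j : ℕ) (k : T.ι → ℤ) (I : MvPolynomial T.ι ℤ) (Λ : ℝ) : Tow :=
  T.add (KK W S s j) lk (QQ T.lv (Z.df j k (J0 W S I))) (Λ • 1)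

/-- from points to labels -/
theorem pin_of {ρ δ : ℝ} (hT : T.Ok s N) (hZ : Z.Ok) (hj : j ≤ s) (hm : j < m)
    {Φ : Fam ℝ (one j).ι T.ι W S} (hΦ : Φ.Ok (fun _ => j) T.lv) (x : Option S → Finset W → ℝ)
    (δ0 : 0 ≤ δ) (h : ∀ o B (y v : T.ι → ℝ),
      (∀ b, T.lv b < j → v b = y b - eval y (Z.fam.at' o B b)) → qq T.G v ≤ 2 ^ (s + 1) * ρ →
      |eval y (Φ.at' o B ()) - x o B| ≤ δ) (z : Lb T cl S m → ℤ) (hz : Z.nlo cl m j z ≤ ρ)
    (l : Lb (one j) cl S m) : |Φ.sb (toR z) l - dlt (x l.bs) l.fc| ≤ 2 ^ s * δ := by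
  obtain ⟨p, h1, h2⟩ := P057NA.vpz hT.ok0 hZ (toR z) l.bs
  have hl : l.fc.card ≤ s := l.card_le.trans hj
  rw [Fam.sb, Fam.alt_eq, h2 _ j _ (hΦ.hom _ _) l.card_eq, ← dlt_sub]
  refine (abs_dlt_le fun B hB => h _ B _ (pt (fun l => if T.lv l.cd < j then Z.ps cl m z l else 0)
    l.bs B) (fun b hb => ?_) ?_).trans (mul_le_mul_of_nonneg_right
      (pow_le_pow_right₀ one_le_two hl) δ0)
  · rw [h1 B (l.2.2.1.mono hB) b (hb.trans hm)]
    exact (pt_ite _ (· < j) _ _ b).trans (if_pos hb)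
  · exact (qq_pt hT.pd _ _ B).trans (mul_le_mul (pow_le_pow_right₀ one_le_two
      (by have := card_le_card hB; omega)) hz
      (qq_nonneg (P057GH.pd_Gam hT.pd cl S m).posSemidef _) (by positivity))

theorem sq_le_qq {K : Type} [Fintype K] [DecidableEq K] {Λ : ℝ} (h : 0 ≤ Λ) (x : K → ℝ) (i : K) :
    Λ * x i ^ 2 ≤ qq (Λ • (1 : Matrix K K ℝ)) x := by
  rw [qq_smul_mat, qq, one_mulVec, sq]
  exact mul_le_mul_of_nonneg_left (single_le_sum (f := fun i => x i * x i)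
    (fun _ _ => mul_self_nonneg _) (mem_univ i)) h

theorem pin_pt {I : MvPolynomial T.ι ℤ} {Λ ρ δ : ℝ} (hT : T.Ok s N) (hZ : Z.Ok) (hj : j ≤ s)
    (hk : ∀ a, T.lv a ≠ j → k a = 0) (hI : I.IsWeightedHomogeneous T.lv j) (hΛ : 0 < Λ)
    (c : Lb (TT Z s j k I Λ) cl S m → ℝ) (hc : ∀ l a, l.cd = Sum.inl a → c l = 0) (δ0 : 0 ≤ δ)
    (hδ : ρ ≤ Λ * δ ^ 2)
    (hs : ∀ o B (y v : T.ι → ℝ), (∀ b, T.lv b < j → v b = y b - eval y (Z.fam.at' o B b)) →
      qq T.G v ≤ ρ → |aeval y I - ∑ a, k a * eval y (T.q a)| ≤ δ) :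
    ∃ x : Option S → Finset W → ℝ, ∀ o B (y v : (TT Z s j k I Λ).ι → ℝ),
      (∀ b, (TT Z s j k I Λ).lv b < j → v b = y b - eval y ((Z.add _ _ _ _ c).fam.at' o B b)) →
      qq (TT Z s j k I Λ).G v ≤ ρ →
      |eval y (((Z.add _ _ _ _ c).df j (Sum.elim k 0) (JJ s j I)).at' o B ()) - x o B| ≤
        (Fintype.card (Ix W s j) + 1) * δ := by
  choose c0 h0 using dec (ok_df hZ hk (ok_J0 hI)) hT.pos hj
  refine ⟨fun o B => c0 o B - ∑ q : Ix W s j, if q.1.1 ⊆ B ∧ q.1.1.card + (q.2 + 1) ≤ j then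
    pt c o B (Sum.inr (q, nb o q)) else 0, fun o B (y v : T.ι ⊕ KK W S s j → ℝ) h4 hv => ?_⟩
  have h3 := (P057AD.qq_gad _ _ _ v).symm.trans_le hv
  replace h4 := fun b hb => (h4 b hb).trans (congrArg (_ - ·) (P057AD.eval_at c o B b y))
  have h5 : ∀ b, T.lv b < j → v (Sum.inl b) = y (Sum.inl b) -
      eval (y ∘ Sum.inl) (Z.fam.at' o B b) := fun b hb => by
    rw [h4 (Sum.inl b) hb, P057AD.pt_zero hc, zero_add]; rfl
  have h6 : ∀ κ, |y (Sum.inr κ) - pt c o B (Sum.inr κ) -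
      eval (y ∘ Sum.inl) (QQ T.lv (Z.df j k (J0 W S I)) κ)| ≤ δ := fun κ => by
    have e1 : eval (y ∘ Sum.inl) ((P057AD.fam0 Z lk (QQ T.lv (Z.df j k (J0 W S I)))).at' o B
        (Sum.inr κ)) = eval (fun b => if T.lv b = lk κ then (y ∘ Sum.inl) b - (v ∘ Sum.inl) b
          else (y ∘ Sum.inl) b) (QQ T.lv (Z.df j k (J0 W S I)) κ) := by
      simp only [Fam.at', P057AD.fam0, Sum.elim_inr, map_bind₁, P057NA.map_evA, eval_bind]
      congr 2
      funext b
      split_ifs with e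
      · exact (eq_sub_iff_add_eq'.2 (eq_sub_iff_add_eq.1 (h5 b (e ▸ lk_lt κ))))
      · simp
    have e2 := (h4 (Sum.inr κ) (lk_lt κ)).trans (congrArg (_ - ·) (congrArg (_ + ·)
      (e1.trans (lin_eval (hom_cq _ _ _) hT.pos _ _))))
    refine abs_le_of_sq_le_sq' ?_ δ0 |> abs_le.2
    refine le_of_mul_le_mul_left (le_trans ?_ hδ) hΛ
    refine le_trans (le_trans (le_of_eq (congrArg (Λ * ·) ?_)) (sq_le_qq hΛ.le _ κ))
      (le_trans (le_add_of_nonneg_left (qq_nonneg hT.pd.posSemidef _)) h3)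
    refine congrArg (· ^ 2) (Eq.trans ?_ (congrArg (· - _) e2).symm)
    simp only [mulVec, dotProduct, Tow.lin, of_apply, QQ]
    ring
  have h7 := hs _ _ (y ∘ Sum.inl) (v ∘ Sum.inl) h5 (le_trans (le_add_of_nonneg_right
    (qq_nonneg (PosDef.one.smul hΛ).posSemidef _)) h3)
  have h8 := congrArg (eval (y ∘ Sum.inl)) (h0 o B)
  rw [at_df, map_add, map_add, top_df hZ, top_J0, at_J0, eval_C, map_sum] at h8
  have h10 : ∑ a, (Sum.elim k 0 a : ℤ) * eval y ((Z.add _ _ _ _ c).fam.at' o B a) =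
      ∑ a, k a * eval (y ∘ Sum.inl) (Z.fam.at' o B a) := by
    refine (Fintype.sum_sum_type _).trans ?_
    simp only [Sum.elim_inl, Sum.elim_inr, Pi.zero_apply, Int.cast_zero, zero_mul, sum_const_zero,
      add_zero]
    exact sum_congr rfl fun a _ => congrArg _ ((P057AD.eval_at c o B (Sum.inl a) y).trans
      ((congrArg (· + _) (P057AD.pt_zero hc o B a)).trans (zero_add _)))
  have h9 := (at_df (T := TT Z s j k I Λ) (Z := Z.add _ _ _ _ c) (j := j) (k := Sum.elim k 0)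
    (J := JJ s j I) o B y).trans (congrArg₂ (· - ·) (at_JJ o B y) h10)
  have h11 := (abs_sum_le_sum_abs _ _).trans (sum_le_card_nsmul univ (fun q : Ix W s j =>
    |(if q.1.1 ⊆ B ∧ q.1.1.card + (q.2 + 1) ≤ j then y (Sum.inr (q, nb o q)) else 0) -
      (if q.1.1 ⊆ B ∧ q.1.1.card + (q.2 + 1) ≤ j then pt c o B (Sum.inr (q, nb o q)) else 0) -
      eval (y ∘ Sum.inl) (if q.1.1 ⊆ B ∧ q.1.1.card + (q.2 + 1) ≤ j then
        cq T.lv ((Z.df j k (J0 W S I)).fn (nb o q) ()) q.1 (q.2 + 1) else 0)|) δ fun q _ => by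
    split_ifs
    exacts [h6 (q, nb o q), by simpa using δ0])
  rw [sum_sub_distrib, sum_sub_distrib, nsmul_eq_mul, card_univ, abs_le] at h11
  rw [abs_le] at h7
  rw [h9, abs_le]
  beta_reduce
  constructor <;> linarith [h7.1, h7.2, h11.1, h11.2]

end

end Vale.Agent.P057EV
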